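import Vale.Agent.Lib.P126.QuantC

/-!
P126: the duality conjecture for metric entropy, for all pairs of origin-symmetric convex bodies
in all dimensions, with small losses: dimension-free with constant scale and constant factor and
an arbitrarily small power, and dimension-free with losses doubly logarithmic in the covering
number and the power one.
-/

namespace Vale.Agent.Results.P126.AllPairsDuality

open Pointwise

/-- The covering number `N(A, B)`: the least `m` such that `A` is contained in the union of `m`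
translates `x 1 + B, ..., x m + B`. -/
noncomputable def coverNum {n : ℕ} (A B : Set (EuclideanSpace ℝ (Fin n))) : ℕ :=
  sInf {m : ℕ | ∃ x : Fin m → EuclideanSpace ℝ (Fin n), A ⊆ ⋃ i, ({x i} + B)}

/-- The polar `K° = {y : ⟨x, y⟩ ≤ 1 for all x ∈ K}`. -/
def polarSet {n : ℕ} (K : Set (EuclideanSpace ℝ (Fin n))) : Set (EuclideanSpace ℝ (Fin n)) :=
  {y | ∀ x ∈ K, inner ℝ x y ≤ 1}

/-- Origin-symmetric convex bodies in `ℝ^n`. -/
def IsSymConvexBody {n : ℕ} (K : Set (EuclideanSpace ℝ (Fin n))) : Prop :=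
  Convex ℝ K ∧ IsCompact K ∧ (interior K).Nonempty ∧ K = -K

/-- The two inequalities of the duality conjecture for the pair `K, L`, with scale `a`, factor `b`
and the right hand sides raised to the power `p` (`p = 1` in the conjecture):
`(1 / b) log N(L°, a K°) ≤ (log N(K, L))^p` and `log N(K, L) ≤ b (log N(L°, a⁻¹ K°))^p`. -/
def DualityIneq (a b p : ℝ) {n : ℕ} (K L : Set (EuclideanSpace ℝ (Fin n))) : Prop :=
  1 / b * Real.log (coverNum (polarSet L) (a • polarSet K)) ≤ Real.log (coverNum K L) ^ p ∧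
  Real.log (coverNum K L) ≤ b * Real.log (coverNum (polarSet L) (a⁻¹ • polarSet K)) ^ p

private theorem coverNum_eq {n : ℕ} (A B : Set (EuclideanSpace ℝ (Fin n))) :
    coverNum A B = _root_.P126.cov A B := by
  classical
  unfold coverNum _root_.P126.cov
  have h1 : ∀ m : ℕ, (∃ S : Finset (EuclideanSpace ℝ (Fin n)),
      S.card = m ∧ A ⊆ ⋃ s ∈ S, s +ᵥ B) →
      ∃ x : Fin m → EuclideanSpace ℝ (Fin n), A ⊆ ⋃ i, ({x i} + B) := by
    rintro m ⟨S, hS, hA⟩
    subst hS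
    refine ⟨fun i => (S.equivFin.symm i : EuclideanSpace ℝ (Fin n)), ?_⟩
    intro y hy
    obtain ⟨s, hs, hys⟩ := Set.mem_iUnion₂.1 (hA hy)
    refine Set.mem_iUnion.2 ⟨S.equivFin ⟨s, hs⟩, ?_⟩
    obtain ⟨z, hz, rfl⟩ := hys
    simp only [Equiv.symm_apply_apply]
    exact Set.add_mem_add (Set.mem_singleton _) hz
  have h2 : ∀ m : ℕ, (∃ x : Fin m → EuclideanSpace ℝ (Fin n), A ⊆ ⋃ i, ({x i} + B)) →
      ∃ m' : ℕ, m' ≤ m ∧ ∃ S : Finset (EuclideanSpace ℝ (Fin n)),
      S.card = m' ∧ A ⊆ ⋃ s ∈ S, s +ᵥ B := by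
    rintro m ⟨x, hx⟩
    refine ⟨(Finset.univ.image x).card, ?_, Finset.univ.image x, rfl, ?_⟩
    · simpa using (Finset.card_image_le (s := (Finset.univ : Finset (Fin m))) (f := x))
    · intro y hy
      obtain ⟨i, hi⟩ := Set.mem_iUnion.1 (hx hy)
      refine Set.mem_iUnion₂.2 ⟨x i, by simp, ?_⟩
      obtain ⟨u, hu, z, hz, rfl⟩ := Set.mem_add.1 hi
      rw [Set.mem_singleton_iff.1 hu]
      exact ⟨z, hz, rfl⟩
  rcases Set.eq_empty_or_nonempty {m : ℕ | ∃ S : Finset (EuclideanSpace ℝ (Fin n)),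
      S.card = m ∧ A ⊆ ⋃ s ∈ S, s +ᵥ B} with he | hne
  · have he2 : {m : ℕ | ∃ x : Fin m → EuclideanSpace ℝ (Fin n), A ⊆ ⋃ i, ({x i} + B)} = ∅ := by
      rw [Set.eq_empty_iff_forall_notMem]
      intro m hm
      obtain ⟨m', -, hm'⟩ := h2 m hm
      exact (Set.eq_empty_iff_forall_notMem.1 he m') hm'
    rw [he, he2]
  · have hne2 : {m : ℕ | ∃ x : Fin m → EuclideanSpace ℝ (Fin n),
        A ⊆ ⋃ i, ({x i} + B)}.Nonempty := by
      obtain ⟨m, hm⟩ := hne
      exact ⟨m, h1 m hm⟩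
    refine le_antisymm (Nat.sInf_le (h1 _ (Nat.sInf_mem hne))) ?_
    obtain ⟨m', hle, hm'⟩ := h2 _ (Nat.sInf_mem hne2)
    exact (Nat.sInf_le hm').trans hle

private theorem polarSet_eq {n : ℕ} (K : Set (EuclideanSpace ℝ (Fin n))) :
    polarSet K = _root_.P126.polar K := rfl

private theorem body_of {n : ℕ} {K : Set (EuclideanSpace ℝ (Fin n))} (hK : IsSymConvexBody K) :
    _root_.P126.SymBody K := by
  refine ⟨hK.1, hK.2.1, hK.2.2.1, ?_⟩
  intro x hx
  rw [hK.2.2.2] at hx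
  exact hx

/-- (A) For every `ε > 0` there are `a, b ≥ 1` such that for all `n ≥ 1` and all origin-symmetric
convex bodies `K, L` in `ℝ^n`
`(1 / b) log N(L°, a K°) ≤ (log N(K, L))^(1 + ε)` and
`log N(K, L) ≤ b (log N(L°, a⁻¹ K°))^(1 + ε)`.
(B) There is an absolute constant `C ≥ 1` such that for all `n ≥ 1` and all origin-symmetric
convex bodies `K, L` in `ℝ^n`: with `Λ = 1 + log (1 + log N(K, L))`, `a = C Λ` and
`b = C Λ (1 + log Λ)`,
`(1 / b) log N(L°, a K°) ≤ log N(K, L) ≤ b log N(L°, a⁻¹ K°)`;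
and for `0 < ε ≤ 1` the two inequalities of (A) hold with `a = C / ε` and
`b = (C / ε) (1 + log (1 / ε))`. -/
theorem result :
    (∀ ε : ℝ, 0 < ε → ∃ a b : ℝ, 1 ≤ a ∧ 1 ≤ b ∧
      ∀ n : ℕ, 1 ≤ n → ∀ K L : Set (EuclideanSpace ℝ (Fin n)),
        IsSymConvexBody K → IsSymConvexBody L → DualityIneq a b (1 + ε) K L) ∧
    (∃ C : ℝ, 1 ≤ C ∧
      ∀ n : ℕ, 1 ≤ n → ∀ K L : Set (EuclideanSpace ℝ (Fin n)),
        IsSymConvexBody K → IsSymConvexBody L →
        (∀ Λ : ℝ, Λ = 1 + Real.log (1 + Real.log (coverNum K L)) →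
          DualityIneq (C * Λ) (C * Λ * (1 + Real.log Λ)) 1 K L) ∧
        (∀ ε : ℝ, 0 < ε → ε ≤ 1 →
          DualityIneq (C / ε) (C / ε * (1 + Real.log (1 / ε))) (1 + ε) K L)) := by
  constructor
  · intro ε hε
    obtain ⟨a, b, ha, hb, h⟩ := _root_.P126.power ε hε
    refine ⟨a, b, ha, hb, ?_⟩
    intro n _ K L hK hL
    obtain ⟨h1, h2⟩ := h n K L (body_of hK) (body_of hL)
    unfold DualityIneq
    simp only [coverNum_eq, polarSet_eq]
    refine ⟨?_, h1⟩
    have hb0 : 0 < b := by linarith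
    rw [one_div, inv_mul_le_iff₀ hb0]
    exact h2
  · refine ⟨3 * 10 ^ 14, by norm_num, ?_⟩
    intro n _ K L hK hL
    replace hK := body_of hK
    replace hL := body_of hL
    unfold DualityIneq
    simp only [coverNum_eq, polarSet_eq, Real.rpow_one]
    refine ⟨?_, ?_⟩
    · intro Λ hΛ
      obtain ⟨h1, h2⟩ := _root_.P126.quant_loglog n K L hK hL Λ hΛ
      have hh0 : 0 ≤ Real.log (_root_.P126.cov K L) := Real.log_natCast_nonneg _
      have hl0 : 0 ≤ Real.log (1 + Real.log (_root_.P126.cov K L)) :=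
        Real.log_nonneg (by linarith)
      have hΛ1 : 1 ≤ Λ := by linarith
      have hlΛ : 0 ≤ Real.log Λ := Real.log_nonneg hΛ1
      have hb0 : 0 < 3 * 10 ^ 14 * Λ * (1 + Real.log Λ) := by positivity
      refine ⟨?_, h1⟩
      rw [one_div, inv_mul_le_iff₀ hb0]
      exact h2
    · intro ε hε hε1
      obtain ⟨h1, h2⟩ := _root_.P126.quant_power (3 * 10 ^ 14) (by norm_num) ε hε hε1 n K L hK hL
      have hl0 : 0 ≤ Real.log (1 / ε) := Real.log_nonneg (by
        rw [le_div_iff₀ hε]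
        linarith)
      have hb0 : 0 < 3 * 10 ^ 14 / ε * (1 + Real.log (1 / ε)) := by positivity
      refine ⟨?_, h1⟩
      rw [one_div, inv_mul_le_iff₀ hb0]
      exact h2

end Vale.Agent.Results.P126.AllPairsDuality
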