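import Vale.Agent.Lib.P126.QuantC

/-!
P126: duality of metric entropy for all origin-symmetric convex bodies with losses that are
doubly logarithmic in the covering number, and with a power `1 + ε` at scale `C / ε`.
-/

namespace Vale.Agent.Results.P126.LogLogDuality

open Pointwise _root_.P126

/-- There is an absolute constant `C` such that for all `n ≥ 1` and all origin-symmetric convex
bodies `K, L` in `ℝ^n`:
(1) with `Λ = 1 + log (1 + log N(K, L))`,
`log N(K, L) ≤ C Λ (1 + log Λ) log N(L°, (C Λ)⁻¹ K°)` and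
`log N(L°, C Λ K°) ≤ C Λ (1 + log Λ) log N(K, L)`;
(2) for every `ε` in `(0, 1]`,
`log N(K, L) ≤ (C / ε) (1 + log (1 / ε)) (log N(L°, (C / ε)⁻¹ K°))^(1 + ε)` and
`log N(L°, (C / ε) K°) ≤ (C / ε) (1 + log (1 / ε)) (log N(K, L))^(1 + ε)`. -/
theorem result : ∃ C : ℝ, 1 ≤ C ∧
    ∀ (n : ℕ), 1 ≤ n → ∀ (K L : Set (EuclideanSpace ℝ (Fin n))), SymBody K → SymBody L →
      (∀ Λ : ℝ, Λ = 1 + Real.log (1 + Real.log (cov K L)) →
        Real.log (cov K L) ≤
          C * Λ * (1 + Real.log Λ) * Real.log (cov (polar L) ((C * Λ)⁻¹ • polar K)) ∧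
        Real.log (cov (polar L) ((C * Λ) • polar K)) ≤
          C * Λ * (1 + Real.log Λ) * Real.log (cov K L)) ∧
      (∀ ε : ℝ, 0 < ε → ε ≤ 1 →
        Real.log (cov K L) ≤ (C / ε) * (1 + Real.log (1 / ε)) *
          (Real.log (cov (polar L) ((C / ε)⁻¹ • polar K))) ^ (1 + ε) ∧
        Real.log (cov (polar L) ((C / ε) • polar K)) ≤
          (C / ε) * (1 + Real.log (1 / ε)) * (Real.log (cov K L)) ^ (1 + ε)) := by
  refine ⟨3 * 10 ^ 14, by norm_num, ?_⟩
  intro n _ K L hK hL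
  refine ⟨fun Λ hΛ => quant_loglog n K L hK hL Λ hΛ, fun ε hε hε1 => ?_⟩
  exact quant_power (3 * 10 ^ 14) (by norm_num) ε hε hε1 n K L hK hL

end Vale.Agent.Results.P126.LogLogDuality
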