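import Vale.Agent.Lib.P126.Power

/-!
P126: duality of metric entropy up to an arbitrarily small power, at constant scale, for all
origin-symmetric convex bodies in all dimensions.
-/

namespace Vale.Agent.Results.P126.PowerDuality

open Pointwise _root_.P126

/-- For every `ε > 0` there are constants `a, b ≥ 1` such that for every `n ≥ 1` and all
origin-symmetric convex bodies `K, L` in `ℝ^n`
`log N(K, L) ≤ b (log N(L°, a⁻¹ K°))^(1+ε)` and `log N(L°, a K°) ≤ b (log N(K, L))^(1+ε)`. -/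
theorem result (ε : ℝ) (hε : 0 < ε) : ∃ a b : ℝ, 1 ≤ a ∧ 1 ≤ b ∧
    ∀ (n : ℕ), 1 ≤ n → ∀ (K L : Set (EuclideanSpace ℝ (Fin n))), SymBody K → SymBody L →
      Real.log (cov K L) ≤ b * (Real.log (cov (polar L) (a⁻¹ • polar K))) ^ (1 + ε) ∧
      Real.log (cov (polar L) (a • polar K)) ≤ b * (Real.log (cov K L)) ^ (1 + ε) := by
  obtain ⟨a, b, ha, hb, h⟩ := power ε hε
  exact ⟨a, b, ha, hb, fun n _ K L hK hL => h n K L hK hL⟩

end Vale.Agent.Results.P126.PowerDuality
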